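import Vale.Agent.P216.H923G.Step
import Vale.Agent.P216.V994.PInst

/-!
# P216-V, (F): the loss of the plain system
-/

set_option linter.all false

open Set Filter Topology BoundedContinuousFunction

namespace Vale.Agent.P216.H923G

open Vale.Agent.P216.Sl Vale.Agent.P216.PS Vale.Agent.P216.V1
open Vale.Agent.P231.Fm Vale.Agent.P231.WA
open Vale.Agent.P216.V609 Vale.Agent.P216.H929V Vale.Agent.P216.H285V Vale.Agent.P216.H961

noncomputable section

variable {M : Type} [MetricSpace M]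

/-- **The loss of the plain system.** -/
theorem loss_plain [CompactSpace M] [SimplyConnectedSpace M] {ρ : ℝ} (hρ : 0 < ρ)
    (hU : LS.UniqSeg M ρ) (b : M) : ∃ c : ℝ, ∀ t₀ > 0, (V994.plain b).Loss t₀ c := by
  obtain ⟨c, hc, H⟩ := exists_push hρ hU b
  refine ⟨c, fun t₀ ht₀ => ⟨hc, fun s t h ht i q => ?_⟩⟩
  obtain ⟨δ, hδ, h1, A, _, P⟩ := H s t h (ht₀.trans_le ht) i.pos (H456.PF_mono (by linarith))
    (map_mono H456.P_subset_PF (subset_univ _) le_rfl) q
  exact ⟨Sc.mk δ hδ, h1, A, inferInstance, P⟩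

end

end Vale.Agent.P216.H923G
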