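import Vale.Agent.P216.V609.NDga

/-!
# P216-V, (F): the abstract form of one step of the fibration

`Fil φ L`: the filtration by the length of the lists. `Ev`: evaluations on cycles of list degree `q`
of the fibre, linear over the base (from the right). `PushD`: finitely many evaluations, the dual
classes `V a` and the contraction `g`. Everything is at fixed scales and levels:
`(C, D, O)` = (base, hybrid, fibre) at a level `T` and a scale `ε`, `(C', D', O')` at `t < T`,
`δ < ε`. All the operators are linear from the right over the base: this passes to `ex` and to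
polynomials componentwise, with no signs: `c (u + v e) = c u + (c v) e`.
-/

open Finset

namespace Vale.Agent.P216.H923G

open V609

variable {k : Type*} [Field k]
variable {B B' W W' Ω Ω' : Type*} [Ring B] [Algebra k B] [Ring B'] [Algebra k B'] [Ring W]
  [Algebra k W] [Ring W'] [Algebra k W'] [Ring Ω] [Algebra k Ω] [Ring Ω'] [Algebra k Ω']

/-- The filtration by the length of the lists (`L n`: lists of length `≤ n`). -/
structure Fil {C : Cdga k B} {D : NDga k W} (φ : CHom C D) (L : ℕ → Submodule k W) : Prop where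
  zero : L 0 = ⊥
  mono : Monotone L
  deg_le : ∀ m, D.deg m ≤ L (m + 1)
  sg : ∀ {n : ℕ} {w : W}, w ∈ L n → D.sg w ∈ L n
  mul : ∀ {n : ℕ} {w : W}, w ∈ L n → ∀ b, w * φ.f b ∈ L n

/-- Evaluations on the cycles `z : Z` of the fibre, of list degree `q`. -/
structure Ev {C : Cdga k B} {C' : Cdga k B'} {D : NDga k W} {O : NDga k Ω}
    (φ : CHom C D) (ρ : Cdga.Hom C C') (L : ℕ → Submodule k W) (rO : NDga.Hom D O)
    (q : ℕ) (Z : Type*) where
  c : Z → W →ₗ[k] B'
  deg : ∀ z {m j : ℕ} {w : W}, m = j + q → w ∈ D.deg m → c z w ∈ C'.deg j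
  sg : ∀ z w, c z (D.sg w) = (-1 : k) ^ q • C'.sg (c z w)
  mul : ∀ z w b, c z (w * φ.f b) = c z w * ρ.f b
  low : ∀ z {w : W}, w ∈ L q → c z w = 0
  d : ∀ z {w : W}, w ∈ L (q + 1) → D.d w ∈ L (q + 1) →
    C'.d (c z w) = (-1 : k) ^ q • c z (D.d w)
  f0 : ∀ z {w : W}, w ∈ D.deg q → C'.d (c z w) = 0 → rO.f w ∈ O.B q → c z w = 0

/-- One step: finitely many evaluations, the dual classes, the contraction. -/
structure PushD {C : Cdga k B} {C' : Cdga k B'} {D : NDga k W} {D' : NDga k W'} {O : NDga k Ω}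
    (φ : CHom C D) (φ' : CHom C' D') (ρ : Cdga.Hom C C') (r : NDga.Hom D D')
    (L : ℕ → Submodule k W) (L' : ℕ → Submodule k W') (rO : NDga.Hom D O)
    (q : ℕ) (A : Type*) [Fintype A] extends Ev φ ρ L rO q A where
  V : A → W'
  V_deg : ∀ a, V a ∈ D'.deg q
  V_L : ∀ a, V a ∈ L' (q + 1)
  dV_L : ∀ a, D'.d (V a) ∈ L' q
  g : W →ₗ[k] W'
  g_deg : ∀ {m : ℕ} {w : W}, w ∈ D.deg (m + 1) → g w ∈ D'.deg m
  g_deg_zero : ∀ {w : W}, w ∈ D.deg 0 → g w = 0
  g_sg : ∀ w, g (D.sg w) = -D'.sg (g w)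
  g_mul : ∀ w b, g (w * φ.f b) = g w * φ'.f (ρ.f b)
  g_L : ∀ {w : W}, w ∈ L (q + 1) → g w ∈ L' q
  main : ∀ {w : W}, w ∈ L (q + 1) → D.d w ∈ L (q + 1) →
    r.f w - ∑ a, V a * φ'.f (c a w) - D'.d (g w) ∈ L' q

/-- All the evaluations in list degree `q` detect exactness on the fibre, one level below. -/
structure EvT {C : Cdga k B} {C' : Cdga k B'} {D : NDga k W} {O : NDga k Ω} {O' : NDga k Ω'}
    (φ : CHom C D) (ρ : Cdga.Hom C C') (L : ℕ → Submodule k W) (rO : NDga.Hom D O)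
    (s : NDga.Hom O O') (q : ℕ) (Z : Type*) extends Ev φ ρ L rO q Z where
  f1 : ∀ {w : W}, w ∈ D.deg q → O.d (rO.f w) = 0 → (∀ z, c z w = 0) → s.f (rO.f w) ∈ O'.B q

end Vale.Agent.P216.H923G
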