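import Vale.Agent.P216.H923G.Op

/-!
# P216-V, (F): evaluation on families of cycles

`evz ζ w (μ) = ∑ v, μ v • w (μ, ζ v)`.
-/

set_option linter.all false

open Set Filter Topology
open scoped ContDiff

namespace Vale.Agent.P216.H923G

open Vale.Agent.P216.Sl Vale.Agent.P216.PS Vale.Agent.P216.V1
open Vale.Agent.P231.Fm Vale.Agent.P231.WA

noncomputable section

variable {M P : Type} [PseudoMetricSpace M] [PseudoMetricSpace P]
variable {p : P → M} {X Y : Set P} {Z : Set M} {ε₁ ε δ : ℝ} {v : M} {l : List P}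
variable {V : Type} [NormedAddCommGroup V] [NormedSpace ℝ V] [FiniteDimensional ℝ V]
  {s : V} {F : Finset M} {ζ : M → Ch ℝ P} {q : ℕ}

/-- the kernel of the evaluation: `[] ↦ ζ v` -/
def kz (ζ : M → Ch ℝ P) (v : M) : Ch ℝ P →ₗ[ℝ] Ch ℝ P :=
  (Finsupp.lapply ([] : List P)).smulRight (ζ v)

@[simp] theorem kz_nil (ζ : M → Ch ℝ P) (v : M) : kz ζ v (Finsupp.single [] 1) = ζ v := by
  simp [kz]

theorem kz_cmp (hζ : Cy p X ε₁ δ q ζ) : Cmp p X Y ε₁ δ (kz ζ) := by
  classical
  refine ⟨fun v l hl => ?_⟩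
  rw [kz, LinearMap.smulRight_apply]
  exact Submodule.smul_mem _ _ (Sp_mono (fun l' h => h.2) (hζ.mem v))

/-- **the evaluation** -/
def evz (hS : Scl ε₁ ε δ) (hζ : Cy p X ε₁ δ q ζ) (w : Form (DT (id : M → M) p X Z ε)) :
    Form (DM Z δ) :=
  Form.pull (fun μ => (μ, ([] : List P))) map_emp
    (Op (Y := X) (Z := Z) hS (kz_cmp hζ) w)

/-- the plot with the empty list -/
def em (P : Type) (u : V → M →₀ ℝ) : V → MP M P := fun y => (u y, [])

theorem supp_em {u : V → M →₀ ℝ} (h : SuppM Z δ F u s) (p : P → M) (Y : Set P) :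
    Supp (id : M → M) p Y Z δ F (em P u) s :=
  ⟨h.smF, ⟨by simp [em], by simp [em]⟩, by simp [em], Eventually.of_forall fun _ => rfl,
    h.out, h.sum, h.sm⟩

section

variable (hS : Scl ε₁ ε δ) (hζ : Cy p X ε₁ δ q ζ)

theorem evz_val (w : Form (DT (id : M → M) p X Z ε)) {u : V → M →₀ ℝ}
    (h : SuppM Z δ F u s) :
    (evz hS hζ w).val u s = ∑ x ∈ F, u s x • pr (slc w (em P u) s) (ζ x) := by
  rw [evz, Form.pull_val map_emp _ (D := DM Z δ) ⟨F, h⟩]
  refine (Op_val hS (kz_cmp hζ) w (supp_em h p X)).trans ?_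
  refine Finset.sum_congr rfl fun x hx => ?_
  show u s x • pr (slc w (em P u) s) (kz ζ x (Finsupp.single [] 1)) = _
  rw [kz_nil]

/-- the evaluation as a linear map -/
def evzL : Form (DT (id : M → M) p X Z ε) →ₗ[ℝ] Form (DM Z δ) :=
  (Form.pullA (fun μ => (μ, ([] : List P))) map_emp).toLinearMap.comp
    (OpL (Y := X) (Z := Z) hS (kz_cmp hζ))

@[simp] theorem evzL_apply (w : Form (DT (id : M → M) p X Z ε)) :
    evzL hS hζ w = evz hS hζ w := rfl

theorem evz_add (w w' : Form (DT (id : M → M) p X Z ε)) :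
    evz hS hζ (w + w') = evz hS hζ w + evz hS hζ w' := map_add (evzL hS hζ) w w'

theorem evz_sub (w w' : Form (DT (id : M → M) p X Z ε)) :
    evz hS hζ (w - w') = evz hS hζ w - evz hS hζ w' := map_sub (evzL hS hζ) w w'

theorem evz_neg (w : Form (DT (id : M → M) p X Z ε)) : evz hS hζ (-w) = -evz hS hζ w :=
  map_neg (evzL hS hζ) w

theorem evz_smul (c : ℝ) (w : Form (DT (id : M → M) p X Z ε)) :
    evz hS hζ (c • w) = c • evz hS hζ w := map_smul (evzL hS hζ) c w

theorem evz_zero : evz hS hζ (0 : Form (DT (id : M → M) p X Z ε)) = 0 := map_zero (evzL hS hζ)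

theorem ext_M {X : Set M} {ε : ℝ} {a b : Form (DM X ε)} (h : ∀ (V : Type) [NormedAddCommGroup V]
    [NormedSpace ℝ V] [FiniteDimensional ℝ V] (u : V → (M →₀ ℝ)) (s : V) (F : Finset M),
    SuppM X ε F u s → a.val u s = b.val u s) : a = b :=
  Form.ext_val fun V _ _ _ u s ⟨F, hF⟩ => h V u s F hF

/-- the part on the lists of length `q + 1` -/
theorem evz_len (w : Form (DT (id : M → M) p X Z ε)) :
    evz hS hζ (len (q + 1) w) = evz hS hζ w :=
  ext_M fun V _ _ _ u s F h => by
    rw [evz_val _ _ _ h, evz_val _ _ _ h]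
    refine Finset.sum_congr rfl fun x hx => ?_
    congr 1
    refine pr_congr (hζ.mem x) fun l hl => ?_
    have h1 := supp_of_nr (supp_em h p X) hx hS.le hS.add hl.2
    refine (len_val _ _ h1).trans ?_
    rw [if_pos hl.1]
    rfl

theorem evz_congr {w w' : Form (DT (id : M → M) p X Z ε)} (h : len (q + 1) w = len (q + 1) w') :
    evz hS hζ w = evz hS hζ w' := by
  rw [← evz_len, h, evz_len]

/-- the parts of another length are killed -/
theorem evz_low {w : Form (DT (id : M → M) p X Z ε)} (h : len (q + 1) w = 0) :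
    evz hS hζ w = 0 := by
  rw [← evz_len, h, evz_zero]

theorem evz_sc (c : List P → ℝ) (r : ℝ) (hc : ∀ l, l.length = q + 1 → c l = r)
    (w : Form (DT (id : M → M) p X Z ε)) : evz hS hζ (sc c w) = r • evz hS hζ w :=
  ext_M fun V _ _ _ u s F h => by
    rw [Form.smul_val, evz_val _ _ _ h, evz_val _ _ _ h, Finset.smul_sum]
    refine Finset.sum_congr rfl fun x hx => ?_
    rw [smul_comm]
    congr 1
    rw [← map_smul]
    rw [show r • ζ x = (LinearMap.lsmul ℝ _ r) (ζ x) from rfl]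
    rw [show (pr (slc w (em P u) s)) ((LinearMap.lsmul ℝ (Ch ℝ P) r) (ζ x)) =
      pr (fun l => r • slc w (em P u) s l) (ζ x) by
        rw [LinearMap.lsmul_apply, map_smul, ← LinearMap.lsmul_apply (R := ℝ),
          map_pr (LinearMap.lsmul ℝ (Lam V) r)]
        rfl]
    refine pr_congr (hζ.mem x) fun l hl => ?_
    have h1 := supp_of_nr (supp_em h p X) hx hS.le hS.add hl.2
    refine (sc_val _ _ h1).trans ?_
    show c l • _ = r • _
    rw [hc l hl.1]
    rfl

theorem sg_evz (w : Form (DT (id : M → M) p X Z ε)) : (evz hS hζ w).sg = evz hS hζ w.sg := by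
  rw [evz, ← Form.pull_sg _ map_emp, sg_Op]
  rfl

theorem part_evz (k : ℕ) (w : Form (DT (id : M → M) p X Z ε)) :
    Form.part k (evz hS hζ w) = evz hS hζ (Form.part k w) := by
  rw [evz, Form.part_pull _ _ map_emp, part_Op]
  rfl

/-- the coboundaries are killed -/
theorem evz_del {w : Form (DT (id : M → M) p X Z ε)} (h0 : len 0 w = 0) :
    evz hS hζ (del w) = 0 :=
  ext_M fun V _ _ _ u s F h => by
    rw [evz_val _ _ _ h, Form.zero_val]
    refine Finset.sum_eq_zero fun x hx => ?_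
    have hs := supp_em h p X
    have e : pr (slc (del w) (em P u) s) (ζ x) = pr (slc w (em P u) s) (bd (ζ x)) := by
      rw [← pr_bl]
      exact pr_congr (hζ.mem x) fun l hl => slc_del w hs hx hS hl.2
    obtain ⟨r, hr⟩ := hζ.bd x
    have h1 := supp_of_nr (X := X) (ε₁ := ε₁) hs hx hS.le hS.add (Nr.nil x)
    have h2 : (len 0 w).val (fun y => ((em P u y).1, ([] : List P))) s = slc w (em P u) s [] := by
      exact (len_val _ _ h1).trans (if_pos rfl)
    rw [e, hr, pr_single, ← h2, h0, Form.zero_val, smul_zero, smul_zero]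

/-- **independence**: for a vertical cocycle the value on `ζ v` does not depend on `v` -/
theorem pr_indep (hS : Scl ε₁ ε δ) (hζ : Cy p X ε₁ δ q ζ) {w : Form (DT (id : M → M) p X Z ε)} (hw : len (q + 2) (del w) = 0)
    {u : V → MP M P} (h : Supp (id : M → M) p Y Z δ F u s) {x x' : M} (hx : x ∈ F) (hx' : x' ∈ F) :
    pr (slc w u s) (ζ x) = pr (slc w u s) (ζ x') := by
  obtain ⟨y, hy, hyb⟩ := hζ.hom x x' (h.smF.2 x hx x' hx')
  rw [← sub_eq_zero, ← map_sub, ← hyb, ← pr_bl]
  refine pr_zero_of hy fun l hl => ?_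
  rw [← slc_del w h hx hS hl.2]
  have h1 := supp_of_nr h hx hS.le hS.add hl.2
  have h2 : (len (q + 2) (del w)).val (fun y => ((u y).1, l)) s = slc (del w) u s l := by
    refine (len_val _ _ h1).trans ?_
    rw [if_pos hl.1]
    rfl
  rw [← h2, hw, Form.zero_val]

/-- the value at one point of the support -/
theorem evz_val_one {w : Form (DT (id : M → M) p X Z ε)} (hw : len (q + 2) (del w) = 0)
    {u : V → M →₀ ℝ} (h : SuppM Z δ F u s) {x : M} (hx : x ∈ F) :
    (evz hS hζ w).val u s = pr (slc w (em P u) s) (ζ x) := by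
  have hs := supp_em h p X
  rw [evz_val _ _ _ h]
  have h1 : ∀ y ∈ F, u s y • pr (slc w (em P u) s) (ζ y) = u s y • pr (slc w (em P u) s) (ζ x) :=
    fun y hy => by rw [pr_indep hS hζ hw hs hy hx]
  rw [Finset.sum_congr rfl h1, ← Finset.sum_smul, h.sum.self_of_nhds, one_smul]

theorem suppM_nonempty {u : V → M →₀ ℝ} (h : SuppM Z δ F u s) : ∃ x, x ∈ F := by
  by_contra hc
  have h1 := h.sum.self_of_nhds
  rw [Finset.sum_eq_zero fun x hx => absurd ⟨x, hx⟩ hc] at h1
  exact zero_ne_one h1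

/-- **the exterior derivative** -/
theorem d_evz {w : Form (DT (id : M → M) p X Z ε)} (hw : len (q + 2) (del w) = 0) :
    (evz hS hζ w).d = evz hS hζ w.d :=
  ext_M fun V _ _ _ u s F h => by
    obtain ⟨x, hx⟩ := suppM_nonempty h
    have hw' : len (q + 2) (del w.d) = 0 := by
      rw [← d_del, ← d_len, hw, Form.d_zero]
    rw [Form.d_val _ (D := DM Z δ) ⟨F, h⟩, evz_val_one hS hζ hw' h hx]
    have h1 : (evz hS hζ w).val u =ᶠ[𝓝 s] fun y => pr (slc w (em P u) y) (ζ x) := by
      filter_upwards [h.near] with y hy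
      exact evz_val_one hS hζ hw hy hx
    rw [extd_congr h1]
    simp only [pr_apply]
    have hs := supp_em h p X
    have hdf : ∀ l ∈ (ζ x).support, DifferentiableAt ℝ (fun y => slc w (em P u) y l) s :=
      fun l hl => w.differentiableAt ⟨F, supp_of_nr hs hx hS.le hS.add (hζ.mem x hl).2⟩
    rw [extd_sum (w := fun l y => ζ x l • slc w (em P u) y l) _
      fun l hl => (hdf l hl).const_smul (ζ x l)]
    refine Finset.sum_congr rfl fun l hl => ?_
    rw [extd_const_smul _ (hdf l hl)]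
    congr 1
    exact (Form.d_val w (supp_of_nr hs hx hS.le hS.add (hζ.mem x hl).2).at).symm

end

end

end Vale.Agent.P216.H923G
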