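import Vale.Agent.P216.H923G.Evz
import Vale.Agent.P216.H961.VaH

/-!
# P216-V, (F): one step of the fibration at fixed scales

`evH`: the structure `Ev` for families of cycles; `pushH`: the structure `PushD` from kernel data.
-/

set_option linter.all false

open Set Filter Topology
open scoped ContDiff

namespace Vale.Agent.P216.H923G

open Vale.Agent.P216.Sl Vale.Agent.P216.PS Vale.Agent.P216.V1
open Vale.Agent.P231.Fm Vale.Agent.P231.WA
open Vale.Agent.P216.V609 Vale.Agent.P216.H929V Vale.Agent.P216.H285V Vale.Agent.P216.H961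

noncomputable section

variable {M P : Type} [PseudoMetricSpace M] [PseudoMetricSpace P]
variable {p : P → M} {X Y : Set P} {Z : Set M} {ε₁ ε δ : ℝ} {v : M} {l : List P}
variable {V : Type} [NormedAddCommGroup V] [NormedSpace ℝ V] [FiniteDimensional ℝ V]
  {s : V} {F : Finset M} {ζ : M → Ch ℝ P} {q : ℕ}
variable {Θ : M → Ch ℝ P →ₗ[ℝ] Ch ℝ P}

/-! ### Products with forms of the base -/

theorem pr_mul_right {f g : List P → Lam V} {c : Lam V} {Q : List P → Prop} {y : Ch ℝ P}
    (hy : y ∈ Sp ℝ Q) (h : ∀ l, Q l → g l = f l * c) : pr g y = pr f y * c := by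
  rw [pr_congr hy h]
  exact (map_pr (LinearMap.mulRight ℝ c) f y).symm

theorem pf_val' (b : Form (DM Z ε)) {u : V → MP M P} (h : Supp (id : M → M) p X Z ε F u s) :
    (pf b : Form (DT (id : M → M) p X Z ε)).val u s = b.val (fun y => (u y).1) s :=
  Form.pull_val map_fst b h.at

theorem resM_val (hδ : δ ≤ ε) (b : Form (DM Z ε)) {u : V → M →₀ ℝ} (h : SuppM Z δ F u s) :
    (Form.pull id (map_monoM (le_refl Z) hδ) b).val u s = b.val u s :=
  Form.pull_val _ b (D := DM Z δ) ⟨F, h⟩

theorem suppM_of {u : V → MP M P} (h : Supp (id : M → M) p X Z ε F u s) :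
    SuppM Z ε F (fun y => (u y).1) s := ⟨h.smF, h.out, h.sum, h.sm⟩

theorem Op_mul_pf (hS : Scl ε₁ ε δ) (hΘ : Cmp p X Y ε₁ δ Θ)
    (w : Form (DT (id : M → M) p X Z ε)) (b : Form (DM Z ε)) :
    Op hS hΘ (w * pf b) =
      Op hS hΘ w * pf (Form.pull id (map_monoM (le_refl Z) hS.le) b) :=
  ext_T fun V _ _ _ u s F h => by
    rw [Op_val _ _ _ h, Form.mul_val, Op_val _ _ _ h, pf_val' _ h, resM_val hS.le _ (suppM_of h),
      Finset.sum_mul]
    refine Finset.sum_congr rfl fun x hx => ?_
    rw [smul_mul_assoc]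
    congr 1
    refine pr_mul_right (hΘ.mem x _ (nr_of_supp h hx)) fun l hl => ?_
    have h1 := supp_of_nr h hx hS.le hS.add hl
    show (w * pf b).val _ s = _
    rw [Form.mul_val, pf_val' _ h1]
    rfl

theorem evz_mul_pf (hS : Scl ε₁ ε δ) (hζ : Cy p X ε₁ δ q ζ)
    (w : Form (DT (id : M → M) p X Z ε)) (b : Form (DM Z ε)) :
    evz hS hζ (w * pf b) = evz hS hζ w * Form.pull id (map_monoM (le_refl Z) hS.le) b :=
  ext_M fun V _ _ _ u s F h => by
    have hs := supp_em h p X
    rw [Form.mul_val, evz_val _ _ _ h, evz_val _ _ _ h, resM_val hS.le _ h, Finset.sum_mul]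
    refine Finset.sum_congr rfl fun x hx => ?_
    rw [smul_mul_assoc]
    congr 1
    refine pr_mul_right (hζ.mem x) fun l hl => ?_
    have h1 := supp_of_nr hs hx hS.le hS.add hl.2
    show (w * pf b).val _ s = _
    rw [Form.mul_val, pf_val' _ h1]
    rfl

/-! ### Kernels which raise the length by one -/

section raise

variable (hS : Scl ε₁ ε δ) (hΘ : Cmp p X Y ε₁ δ Θ)
  (hr : ∀ v l, Nr p Y δ v l → Θ v (Finsupp.single l 1) ∈
    Sp ℝ fun l' => l'.length = l.length + 1 ∧ Nr p X ε₁ v l')

include hr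

theorem len_Op (k : ℕ) (w : Form (DT (id : M → M) p X Z ε)) :
    len k (Op hS hΘ w) = Op hS hΘ (len (k + 1) w) :=
  ext_T fun V _ _ _ u s F h => by
    rw [len_val _ _ h, Op_val _ _ _ h, Op_val _ _ _ h]
    have key : ∀ x ∈ F, ∀ l, l.length = (u s).2.length + 1 ∧ Nr p X ε₁ x l →
        slc (len (k + 1) w) u s l = if (u s).2.length = k then slc w u s l else 0 := by
      intro x hx l hl
      have h1 := supp_of_nr h hx hS.le hS.add hl.2
      refine (len_val _ _ h1).trans ?_
      show (if l.length = k + 1 then _ else _) = _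
      rw [hl.1]
      simp only [add_left_inj]
      rfl
    split_ifs with hk
    · refine Finset.sum_congr rfl fun x hx => ?_
      congr 1
      refine pr_congr (hr x _ (nr_of_supp h hx)) fun l hl => ?_
      rw [key x hx l hl, if_pos hk]
    · refine (Finset.sum_eq_zero fun x hx => ?_).symm
      rw [pr_zero_of (hr x _ (nr_of_supp h hx)) fun l hl => by rw [key x hx l hl, if_neg hk],
        smul_zero]

theorem Op_sgn (w : Form (DT (id : M → M) p X Z ε)) :
    Op hS hΘ (sc sgn w) = -sc sgn (Op hS hΘ w) :=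
  ext_T fun V _ _ _ u s F h => by
    rw [Form.neg_val, sc_val _ _ h, Op_val _ _ _ h, Op_val _ _ _ h, Finset.smul_sum,
      ← Finset.sum_neg_distrib]
    refine Finset.sum_congr rfl fun x hx => ?_
    rw [smul_comm, ← smul_neg]
    congr 1
    rw [show -(sgn (u s).2 • pr (slc w u s) (Θ x (Finsupp.single (u s).2 1))) =
      (LinearMap.lsmul ℝ (Lam V) (-sgn (u s).2)) (pr (slc w u s) (Θ x (Finsupp.single (u s).2 1)))
      by rw [LinearMap.lsmul_apply, neg_smul], map_pr]
    refine pr_congr (hr x _ (nr_of_supp h hx)) fun l hl => ?_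
    have h1 := supp_of_nr h hx hS.le hS.add hl.2
    refine (sc_val _ _ h1).trans ?_
    show sgn l • _ = (LinearMap.lsmul ℝ (Lam V) (-sgn (u s).2)) _
    rw [LinearMap.lsmul_apply, sgn, sgn, hl.1, pow_succ, mul_neg_one]
    rfl

end raise

/-! ### The evaluations as the structure `Ev` -/

section ev

variable (M δ ε) in
/-- restriction of the base -/
abbrev rB (h : δ ≤ ε) : Cdga.Hom (fC (DM (univ : Set M) ε)) (fC (DM (univ : Set M) δ)) :=
  fHom id (map_monoM (le_refl univ) h)

/-- restriction of the hybrid -/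
abbrev rD (hYX : Y ⊆ X) (h : δ ≤ ε) :
    NDga.Hom (hN (id : M → M) p X univ ε) (hN (id : M → M) p Y univ δ) :=
  pullHom Sq.id (map_mono hYX (le_refl univ) h)

/-- the underlying form -/
def valL (p : P → M) (X : Set P) (ε : ℝ) :
    HT (id : M → M) p X univ ε →ₗ[ℝ] Form (DT (id : M → M) p X (univ : Set M) ε) where
  toFun := HT.val
  map_add' _ _ := rfl
  map_smul' _ _ := rfl

/-- **the evaluation** on the hybrid algebra -/
def cH (hS : Scl ε₁ ε δ) (hζ : Cy p X ε₁ δ q ζ) :
    HT (id : M → M) p X univ ε →ₗ[ℝ] Form (DM (univ : Set M) δ) :=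
  (evzL hS hζ).comp (valL p X ε)

variable (hS : Scl ε₁ ε δ) (hζ : Cy p X ε₁ δ q ζ)

theorem cH_apply (w : HT (id : M → M) p X univ ε) : cH hS hζ w = evz hS hζ w.val := rfl

theorem isDeg_evz {j : ℕ} {w : Form (DT (id : M → M) p X univ ε)}
    (hw : Form.IsDeg j (len (q + 1) w)) : Form.IsDeg j (evz hS hζ w) := by
  show Form.part j (evz hS hζ w) = evz hS hζ w
  rw [← evz_len, part_evz, show Form.part j (len (q + 1) w) = len (q + 1) w from hw]

theorem cH_deg {m j : ℕ} (hm : m = j + q) {w : HT (id : M → M) p X univ ε}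
    (hw : w ∈ (hN (id : M → M) p X univ ε).deg m) :
    cH hS hζ w ∈ (fC (DM (univ : Set M) δ)).deg j := by
  have h1 : TDg (m + 1) w.val := hw
  exact isDeg_evz hS hζ (h1.deg (q + 1) j (by omega))

theorem evz_sgn (w : Form (DT (id : M → M) p X univ ε)) :
    evz hS hζ (sc sgn w) = (-1 : ℝ) ^ (q + 1) • evz hS hζ w :=
  evz_sc hS hζ sgn _ (fun l hl => by rw [sgn, hl]) w

theorem cH_sg (w : HT (id : M → M) p X univ ε) :
    cH hS hζ ((hN (id : M → M) p X univ ε).sg w) =
      (-1 : ℝ) ^ q • (fC (DM (univ : Set M) δ)).sg (cH hS hζ w) := by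
  show evz hS hζ (-tau w.val) = (-1 : ℝ) ^ q • (evz hS hζ w.val).sg
  rw [evz_neg, tau, evz_sgn, sg_evz, pow_succ, mul_neg_one, neg_smul, neg_neg]

theorem cH_mul (w : HT (id : M → M) p X univ ε) (b : Form (DM (univ : Set M) ε)) :
    cH hS hζ (w * (iC (id : M → M) p X univ ε).f b) = cH hS hζ w * (rB M ε δ hS.le).f b := by
  rw [cH_apply, val_mul_iC, evz_mul_pf]
  rfl

theorem cH_low {w : HT (id : M → M) p X univ ε} (hw : w ∈ LF (id : M → M) p X univ ε q) :
    cH hS hζ w = 0 := evz_low hS hζ (hw (q + 1) (Nat.lt_succ_self q))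

/-- the top part of the differential -/
theorem len_del_of {w : HT (id : M → M) p X univ ε}
    (hw : w ∈ LF (id : M → M) p X univ ε (q + 1))
    (hd : (hN (id : M → M) p X univ ε).d w ∈ LF (id : M → M) p X univ ε (q + 1)) :
    len (q + 2) (del w.val) = 0 := by
  have h1 := hd (q + 2) (by omega)
  rw [hN_d, D, neg_add, len_add, len_neg, len_neg, len_sc, ← d_len,
    hw (q + 2) (by omega), Form.d_zero, sc_zero, neg_zero, add_zero, neg_eq_zero] at h1
  exact h1

theorem cH_d {w : HT (id : M → M) p X univ ε} (hw : w ∈ LF (id : M → M) p X univ ε (q + 1))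
    (hd : (hN (id : M → M) p X univ ε).d w ∈ LF (id : M → M) p X univ ε (q + 1)) :
    (fC (DM (univ : Set M) δ)).d (cH hS hζ w) =
      (-1 : ℝ) ^ q • cH hS hζ ((hN (id : M → M) p X univ ε).d w) := by
  show (evz hS hζ w.val).d = (-1 : ℝ) ^ q • evz hS hζ (-D w.val)
  rw [d_evz hS hζ (len_del_of hw hd), D, evz_neg, evz_add, evz_del hS hζ w.len_val', zero_add,
    evz_sgn, pow_succ, mul_neg_one, neg_smul, neg_neg, smul_smul, ← mul_pow]
  simp

end ev

/-! ### The contraction -/

section con

variable {A : Type} [Fintype A] (hS : Scl ε₁ ε δ) (K : KD p X Y ε₁ δ q A)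

theorem cmp_K : Cmp p X Y ε₁ δ K.K := ⟨fun v l hl => Sp_mono (fun l' h => h.2) (K.K_mem v l hl)⟩

/-- the contraction on forms -/
def gF (w : Form (DT (id : M → M) p X univ ε)) : Form (DT (id : M → M) p Y univ δ) :=
  Op hS (cmp_K K) w

theorem gF_len (k : ℕ) (w : Form (DT (id : M → M) p X univ ε)) :
    len k (gF hS K w) = gF hS K (len (k + 1) w) := len_Op hS (cmp_K K) K.K_mem k w

theorem gF_len_zero (w : Form (DT (id : M → M) p X univ ε)) : len 0 (gF hS K w) = 0 :=
  ext_T fun V _ _ _ u s F h => by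
    rw [len_val _ _ h, Form.zero_val]
    split_ifs with h1
    · rw [gF, Op_val _ _ _ h, List.length_eq_zero_iff.1 h1]
      refine Finset.sum_eq_zero fun x hx => ?_
      rw [K.K_nil, map_zero, smul_zero]
    · rfl

/-- **the contraction on the hybrid algebra** -/
def gH : HT (id : M → M) p X univ ε →ₗ[ℝ] HT (id : M → M) p Y univ δ where
  toFun w := HT.mk δ (-gF hS K w.val) (by rw [len_neg, gF_len_zero, neg_zero])
  map_add' v w := HT.ext (by
    show -gF hS K (v.val + w.val) = -gF hS K v.val + -gF hS K w.val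
    rw [gF, gF, gF, Op_add, neg_add])
  map_smul' c w := HT.ext (by
    show -gF hS K (c • w.val) = c • -gF hS K w.val
    rw [gF, gF, Op_smul, smul_neg])

theorem gH_val (w : HT (id : M → M) p X univ ε) : (gH hS K w).val = -gF hS K w.val := rfl

theorem gF_part (k : ℕ) (w : Form (DT (id : M → M) p X univ ε)) :
    Form.part k (gF hS K w) = gF hS K (Form.part k w) := part_Op hS (cmp_K K) k w

theorem gF_zero : gF hS K (0 : Form (DT (id : M → M) p X univ ε)) = 0 := Op_zero hS (cmp_K K)

theorem tdg_gF {m : ℕ} {w : Form (DT (id : M → M) p X univ ε)} (h : TDg (m + 2) w) :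
    TDg (m + 1) (gF hS K w) where
  zero := gF_len_zero hS K w
  deg k j hkj := by
    show Form.part j (len k (gF hS K w)) = len k (gF hS K w)
    rw [gF_len, gF_part, show Form.part j (len (k + 1) w) = len (k + 1) w from
      h.deg (k + 1) j (by omega)]
  top k hk := by rw [gF_len, h.top (k + 1) (by omega), gF_zero]

theorem gH_deg {m : ℕ} {w : HT (id : M → M) p X univ ε}
    (hw : w ∈ (hN (id : M → M) p X univ ε).deg (m + 1)) :
    gH hS K w ∈ (hN (id : M → M) p Y univ δ).deg m :=
  tdg_neg (tdg_gF hS K hw)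

theorem gH_deg_zero {w : HT (id : M → M) p X univ ε}
    (hw : w ∈ (hN (id : M → M) p X univ ε).deg 0) : gH hS K w = 0 := by
  have h1 : TDg (0 + 1) w.val := hw
  refine HT.ext ?_
  rw [gH_val, HT.val_zero, neg_eq_zero]
  refine ext_len fun k => ?_
  rw [len_zero]
  rcases Nat.eq_zero_or_pos k with rfl | hk
  · exact gF_len_zero hS K _
  · rw [gF_len, h1.top (k + 1) (by omega), gF_zero]

theorem gF_sgn (w : Form (DT (id : M → M) p X univ ε)) :
    gF hS K (sc sgn w) = -sc sgn (gF hS K w) := Op_sgn hS (cmp_K K) K.K_mem w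

theorem gH_sg (w : HT (id : M → M) p X univ ε) :
    gH hS K ((hN (id : M → M) p X univ ε).sg w) =
      -(hN (id : M → M) p Y univ δ).sg (gH hS K w) := HT.ext (by
  show -gF hS K (-tau w.val) = -(-tau (-gF hS K w.val))
  have h1 : gF hS K (-tau w.val) = -gF hS K (tau w.val) := Op_neg hS (cmp_K K) _
  have h2 : (gF hS K w.val).sg = gF hS K w.val.sg := sg_Op hS (cmp_K K) _
  rw [h1, neg_neg, neg_neg, tau, tau, gF_sgn, Form.sg_neg, sc_neg, h2])

theorem gH_mul (w : HT (id : M → M) p X univ ε) (b : Form (DM (univ : Set M) ε)) :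
    gH hS K (w * (iC (id : M → M) p X univ ε).f b) =
      gH hS K w * (iC (id : M → M) p Y univ δ).f ((rB M ε δ hS.le).f b) := HT.ext (by
  rw [gH_val, val_mul_iC, val_mul_iC, gH_val, gF, Op_mul_pf, neg_mul]
  rfl)

theorem gH_L {k : ℕ} {w : HT (id : M → M) p X univ ε}
    (hw : w ∈ LF (id : M → M) p X univ ε (k + 1)) : gH hS K w ∈ LF (id : M → M) p Y univ δ k :=
  fun j hj => by rw [gH_val, len_neg, gF_len, hw (j + 1) (by omega), gF_zero, neg_zero]

/-! ### The main identity -/

theorem main_top {w : Form (DT (id : M → M) p X univ ε)} (h0 : len 0 w = 0)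
    (hd : len (q + 2) (del w) = 0) (hYX : Y ⊆ X) :
    len (q + 1) (Form.pull id (map_mono hYX (le_refl univ) hS.le) w) =
      ∑ a, vf K a * pf (evz hS (K.cy a) w) + len (q + 1) (del (gF hS K w)) :=
  ext_T fun V _ _ _ u s F h => by
    rw [len_val _ _ h, Form.pull_val _ w h.at, Form.add_val, len_val _ _ h, Form.sum_val]
    split_ifs with hl
    · have hu : w.val (id ∘ u) s = ∑ x ∈ F, (u s).1 x •
          pr (slc w u s) (Finsupp.single (u s).2 1) := by
        rw [← Finset.sum_smul, h.sum.self_of_nhds, one_smul, pr_single, one_smul]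
        obtain ⟨x, hx⟩ := suppM_nonempty (suppM_of h)
        have h1 : Supp (id : M → M) p X univ ε F u s := h.mono hYX (le_refl univ) hS.le
        exact (val_list w h1).symm
      rw [hu, gF, del_Op, Op_val _ _ _ h]
      have hv : ∀ a, (vf K a * pf (evz hS (K.cy a) w)).val u s =
          ∑ x ∈ F, (u s).1 x • K.ν a x (u s).2 • pr (slc w u s) (K.ζ a x) := by
        intro a
        rw [Form.mul_val, vf_val _ _ h, if_pos hl, pf_val' _ h]
        rw [map_sum, Finset.sum_mul]
        refine Finset.sum_congr rfl fun x hx => ?_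
        have h2 := evz_val_one hS (K.cy a) hd (suppM_of h) hx
        have h3 : pr (slc w (em P fun y => (u y).1) s) (K.ζ a x) = pr (slc w u s) (K.ζ a x) := rfl
        rw [h2, h3, ← Algebra.smul_def, mul_smul]
      rw [Finset.sum_congr rfl fun a _ => hv a, Finset.sum_comm, ← Finset.sum_add_distrib]
      refine Finset.sum_congr rfl fun x hx => ?_
      rw [← Finset.smul_sum, ← smul_add]
      congr 1
      have hn := nr_of_supp h hx
      have h4 := K.K_spec x (u s).2 hl hn
      have h5 : pr (slc w u s) (bd (K.K x (Finsupp.single (u s).2 1))) = 0 := by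
        rw [← pr_bl]
        refine pr_zero_of (K.K_mem x _ hn) fun l hl' => ?_
        rw [← slc_del w h hx hS hl'.2]
        have h6 := supp_of_nr h hx hS.le hS.add hl'.2
        have h7 : (len (q + 2) (del w)).val (fun y => ((u y).1, l)) s = slc (del w) u s l := by
          refine (len_val _ _ h6).trans ?_
          rw [if_pos (show l.length = q + 2 by rw [hl'.1, hl])]
          rfl
        rw [← h7, hd, Form.zero_val]
      rw [LinearMap.comp_apply, bd_single, one_smul, h4, map_add, map_add, h5, add_zero, map_sum]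
      congr 1
      exact Finset.sum_congr rfl fun a _ => map_smul _ _ _
    · rw [add_zero]
      refine (Finset.sum_eq_zero fun a _ => ?_).symm
      rw [Form.mul_val, vf_val _ _ h, if_neg hl, zero_mul]

theorem mainH (hYX : Y ⊆ X) {w : HT (id : M → M) p X univ ε}
    (hw : w ∈ LF (id : M → M) p X univ ε (q + 1))
    (hd : (hN (id : M → M) p X univ ε).d w ∈ LF (id : M → M) p X univ ε (q + 1)) :
    (rD hYX hS.le).f w - ∑ a, VaN K a * (iC (id : M → M) p Y univ δ).f (cH hS (K.cy a) w) -
      (hN (id : M → M) p Y univ δ).d (gH hS K w) ∈ LF (id : M → M) p Y univ δ q := by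
  have hgw := gH_L hS K hw
  have h1 : (rD hYX hS.le).f w ∈ LF (id : M → M) p Y univ δ (q + 1) := fun k hk => by
    show len k (Form.pull id (map_mono hYX (le_refl univ) hS.le) w.val) = 0
    rw [← pull_len Sq.id, hw k hk]
    exact map_zero (Form.pullA id (map_mono hYX (le_refl univ) hS.le))
  have h2 : ∀ a, VaN K a * (iC (id : M → M) p Y univ δ).f (cH hS (K.cy a) w) ∈
      LF (id : M → M) p Y univ δ (q + 1) := fun a => mul_mem_LF (VaN_L K a) _
  have h3 : (hN (id : M → M) p Y univ δ).d (gH hS K w) ∈ LF (id : M → M) p Y univ δ (q + 1) :=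
    fun k hk => by
      rw [hN_d, D, neg_add, len_add, len_neg, len_neg, len_sc, ← d_len, hgw k (by omega),
        Form.d_zero, sc_zero, neg_zero, add_zero, neg_eq_zero]
      obtain ⟨k, rfl⟩ : ∃ j, k = j + 1 := ⟨k - 1, by omega⟩
      rw [← del_len, hgw k (by omega), del_zero]
  intro k hk
  rcases Nat.lt_or_ge (q + 1) k with hk' | hk'
  · exact (Submodule.sub_mem _ (Submodule.sub_mem _ h1 (Submodule.sum_mem _ fun a _ => h2 a)) h3)
      k hk'
  · obtain rfl : k = q + 1 := by omega
    have h4 := main_top hS K w.len_val' (len_del_of hw hd) hYX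
    have h5 : len (q + 1) ((hN (id : M → M) p Y univ δ).d (gH hS K w)).val =
        len (q + 1) (del (gF hS K w.val)) := by
      rw [hN_d, D, gH_val, neg_add, len_add, len_neg, len_neg, len_sc, ← d_len, len_neg,
        gF_len, hw (q + 1 + 1) (by omega), gF_zero, neg_zero, Form.d_zero, sc_zero, neg_zero,
        add_zero, del_neg, len_neg, neg_neg]
    have h6 : (∑ a, VaN K a * (iC (id : M → M) p Y univ δ).f (cH hS (K.cy a) w)).val =
        ∑ a, (VaN K a * (iC (id : M → M) p Y univ δ).f (cH hS (K.cy a) w)).val :=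
      map_sum (valL p Y δ) _ _
    rw [HT.val_sub, HT.val_sub, len_sub, len_sub, h5, h6]
    have h7 : len (q + 1) (∑ a, (VaN K a * (iC (id : M → M) p Y univ δ).f
        (cH hS (K.cy a) w)).val) = ∑ a, vf K a * pf (evz hS (K.cy a) w.val) := by
      rw [len, sc, Finset.mul_sum]
      exact Finset.sum_congr rfl fun a _ => len_VaN_mul K a _
    rw [h7]
    show len (q + 1) (Form.pull id (map_mono hYX (le_refl univ) hS.le) w.val) - _ - _ = 0
    rw [h4]
    abel

/-- **One step of the fibration**: `PushD` from kernel data. -/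
def pushH (hYX : Y ⊆ X) {Ω : Type*} [Ring Ω] [Algebra ℝ Ω] {O : NDga ℝ Ω}
    (rO : NDga.Hom (hN (id : M → M) p X univ ε) O)
    (hf0 : ∀ a, ∀ {w : HT (id : M → M) p X univ ε}, w ∈ (hN (id : M → M) p X univ ε).deg q →
      (fC (DM (univ : Set M) δ)).d (cH hS (K.cy a) w) = 0 → rO.f w ∈ O.B q →
      cH hS (K.cy a) w = 0) :
    PushD (iC (id : M → M) p X univ ε) (iC (id : M → M) p Y univ δ) (rB M ε δ hS.le)
      (rD hYX hS.le) (LF (id : M → M) p X univ ε) (LF (id : M → M) p Y univ δ) rO q A where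
  c a := cH hS (K.cy a)
  deg a _ _ _ hm hw := cH_deg hS (K.cy a) hm hw
  sg a w := cH_sg hS (K.cy a) w
  mul a w b := cH_mul hS (K.cy a) w b
  low a _ hw := cH_low hS (K.cy a) hw
  d a _ hw hd := cH_d hS (K.cy a) hw hd
  f0 a := hf0 a
  V := VaN K
  V_deg := VaN_deg K
  V_L := VaN_L K
  dV_L := dVaN_L K
  g := gH hS K
  g_deg := gH_deg hS K
  g_deg_zero := gH_deg_zero hS K
  g_sg := gH_sg hS K
  g_mul := gH_mul hS K
  g_L := gH_L hS K
  main := mainH hS K hYX

end con

end

end Vale.Agent.P216.H923G
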