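import Vale.Agent.P216.V1.Tot

/-!
# P216-V, (F): kernel data

Chain level data for one step of the fibration `π : E → M` (`X` the big level, `Y` the small one):
* `Cy π X ε δ q ζ`: a cycle of degree `q` in every fibre, homologous for nearby points;
* `KD π X Y ε δ q A`: finitely many such families `ζ a`, the dual cocycles `ν a v` on the lists of `Y`
  near `v`, and the contraction `K v`.
-/

set_option linter.all false

open Finsupp

namespace Vale.Agent.P216.H923G

open Vale.Agent.P216.Sl Vale.Agent.P216.PS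

variable {M E : Type} [PseudoMetricSpace M] [PseudoMetricSpace E]

/-- `l` is an `ε`-small list of `X` over the `ε`-ball about `v`. -/
def Nr (π : E → M) (X : Set E) (ε : ℝ) (v : M) (l : List E) : Prop :=
  SmL X ε l ∧ ∀ x ∈ l, dist (π x) v < ε

/-- A cycle of degree `q` near every `v`; the cycles for near points are homologous. -/
structure Cy (π : E → M) (X : Set E) (ε δ : ℝ) (q : ℕ) (ζ : M → Ch ℝ E) : Prop where
  mem : ∀ v, ζ v ∈ Sp ℝ fun l => l.length = q + 1 ∧ Nr π X ε v l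
  bd : ∀ v, ∃ r, Sl.bd (ζ v) = single [] r
  hom : ∀ v v', dist v v' < δ → ∃ y ∈ Sp ℝ (fun l => l.length = q + 2 ∧ Nr π X ε v l),
    Sl.bd y = ζ v - ζ v'

/-- Kernel data. -/
structure KD (π : E → M) (X Y : Set E) (ε δ : ℝ) (q : ℕ) (A : Type) [Fintype A] where
  ζ : A → M → Ch ℝ E
  ν : A → M → List E → ℝ
  om : A → M → M → List E → ℝ
  K : M → Ch ℝ E →ₗ[ℝ] Ch ℝ E
  cy : ∀ a, Cy π X ε δ q (ζ a)
  ν_coc : ∀ a v l, l.length = q + 2 → Nr π Y δ v l → dl (ν a v) l = 0
  om_nil : ∀ a v v', om a v v' [] = 0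
  om_spec : ∀ a v v' l, l.length = q + 1 → dist v v' < δ → Nr π Y δ v l → Nr π Y δ v' l →
    ν a v l - ν a v' l = dl (om a v' v) l
  K_nil : ∀ v, K v (single [] 1) = 0
  K_mem : ∀ v l, Nr π Y δ v l →
    K v (single l 1) ∈ Sp ℝ fun l' => l'.length = l.length + 1 ∧ Nr π X ε v l'
  K_spec : ∀ v l, l.length = q + 1 → Nr π Y δ v l →
    single l 1 = ∑ a, ν a v l • ζ a v + K v (bdL l) + Sl.bd (K v (single l 1))

end Vale.Agent.P216.H923G
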