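import Vale.Agent.P216.H923G.KD

/-!
# P216-V, (F): kernel operators on forms with lists

`Op Θ w (μ, l) = ∑ v, μ v • w (μ, Θ v l)` for a kernel `Θ : M → Ch ℝ P →ₗ Ch ℝ P`.
-/

set_option linter.all false

open Set Filter Topology
open scoped ContDiff

namespace Vale.Agent.P216.H923G

open Vale.Agent.P216.Sl Vale.Agent.P216.PS Vale.Agent.P216.V1
open Vale.Agent.P231.Fm Vale.Agent.P231.WA

noncomputable section

variable {M P : Type} [PseudoMetricSpace M] [PseudoMetricSpace P]

/-! ### Evaluation of functions of lists on chains -/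

section pr

variable {L : Type} [AddCommGroup L] [Module ℝ L]

/-- evaluation of a function of lists on a chain -/
def pr (f : List P → L) : Ch ℝ P →ₗ[ℝ] L := Finsupp.linearCombination ℝ f

theorem pr_apply (f : List P → L) (c : Ch ℝ P) : pr f c = ∑ l ∈ c.support, c l • f l := rfl

@[simp] theorem pr_single (f : List P → L) (l : List P) (r : ℝ) :
    pr f (Finsupp.single l r) = r • f l := by
  simp [pr, Finsupp.linearCombination_single]

theorem pr_congr {f g : List P → L} {Q : List P → Prop} {c : Ch ℝ P} (hc : c ∈ Sp ℝ Q)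
    (h : ∀ l, Q l → f l = g l) : pr f c = pr g c :=
  Finset.sum_congr rfl fun l hl => by
    show c l • f l = c l • g l
    rw [h l (hc hl)]

theorem pr_zero_of {f : List P → L} {Q : List P → Prop} {c : Ch ℝ P} (hc : c ∈ Sp ℝ Q)
    (h : ∀ l, Q l → f l = 0) : pr f c = 0 := by
  rw [pr_congr hc (g := fun _ => 0) h]
  exact Finset.sum_eq_zero fun l _ => smul_zero _

theorem bl_eq_pr (f : List P → L) (l : List P) : bl f l = pr f (bdL l) := by
  induction l generalizing f with
  | nil => rw [bl_nil, bdL_nil, map_zero]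
  | cons x l ih =>
    rw [bl_cons, ih, bdL_cons, map_sub, pr_single, one_smul]
    congr 1
    exact Sl.lin_ext_apply (f := pr fun l' => f (x :: l')) (g := (pr f).comp (cons x))
      (fun l' => by simp) _

theorem pr_bl (f : List P → L) (c : Ch ℝ P) : pr (bl f) c = pr f (bd c) :=
  Sl.lin_ext_apply (f := pr (bl f)) (g := (pr f).comp bd) (fun l => by
    rw [pr_single, one_smul, bl_eq_pr, LinearMap.comp_apply, bd_single, one_smul]) _

theorem map_pr {L' : Type} [AddCommGroup L'] [Module ℝ L'] (φ : L →ₗ[ℝ] L') (f : List P → L)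
    (c : Ch ℝ P) : φ (pr f c) = pr (fun l => φ (f l)) c :=
  Sl.lin_ext_apply (f := φ.comp (pr f)) (g := pr fun l => φ (f l)) (fun l => by simp) _

end pr

/-! ### Near lists -/

variable {p : P → M} {X Y : Set P} {Z : Set M} {ε₁ ε δ : ℝ} {v : M} {l : List P}

theorem Nr.nil (v : M) : Nr p X ε v ([] : List P) := ⟨⟨by simp, by simp⟩, by simp⟩

theorem Nr.sub {l' : List P} (h : Nr p X ε v l) (hl : ∀ x ∈ l', x ∈ l) : Nr p X ε v l' :=
  ⟨⟨fun x hx => h.1.1 x (hl x hx), fun x hx y hy => h.1.2 x (hl x hx) y (hl y hy)⟩,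
    fun x hx => h.2 x (hl x hx)⟩

theorem bdL_mem_sub (l : List P) :
    (bdL l : Ch ℝ P) ∈ Sp ℝ fun l' => l'.length + 1 = l.length ∧ ∀ x ∈ l', x ∈ l := by
  induction l with
  | nil => rw [bdL_nil]; exact Submodule.zero_mem _
  | cons x l ih =>
    rw [bdL_cons]
    refine Submodule.sub_mem _ (single_mem ⟨rfl, fun y hy => List.mem_cons_of_mem _ hy⟩ _) ?_
    refine map_mem (cons x) (fun l' hl' => ?_) ih
    rw [cons_single]
    refine single_mem ⟨by simp [hl'.1], fun y hy => ?_⟩ _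
    rcases List.mem_cons.1 hy with rfl | hy
    · simp
    · exact List.mem_cons_of_mem _ (hl'.2 y hy)

variable {V : Type} [NormedAddCommGroup V] [NormedSpace ℝ V] [FiniteDimensional ℝ V]
  {u : V → MP M P} {s : V} {F : Finset M}

/-- the list of a plot is near the points of the support -/
theorem nr_of_supp (h : Supp (id : M → M) p Y Z δ F u s) (hv : v ∈ F) : Nr p Y δ v (u s).2 :=
  ⟨h.smA, fun x hx => h.near' x hx v hv⟩

/-- change of the list to a near list -/
theorem supp_of_nr (h : Supp (id : M → M) p Y Z δ F u s) (hv : v ∈ F) (hδ : δ ≤ ε)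
    (h1 : ε₁ + δ ≤ ε) (hl : Nr p X ε₁ v l) :
    Supp (id : M → M) p X Z ε F (fun y => ((u y).1, l)) s := by
  have h0 : 0 < δ := (dist_self v).symm.trans_lt (h.smF.2 v hv v hv)
  refine ⟨h.smF.mono le_rfl hδ, ⟨fun x hx => hl.1.1 x hx, fun x hx y hy => ?_⟩, fun x hx w hw => ?_,
    Eventually.of_forall fun _ => rfl, h.out, h.sum, h.sm⟩
  · have := hl.1.2 x hx y hy
    linarith
  · have e1 := hl.2 x hx
    have e2 := h.smF.2 v hv w hw
    have e3 := dist_triangle (p x) v w
    show dist (p x) (id w) < ε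
    rw [id]
    linarith

/-! ### The operator -/

/-- the values of a kernel are near -/
structure Cmp (p : P → M) (X Y : Set P) (ε₁ δ : ℝ) (Θ : M → Ch ℝ P →ₗ[ℝ] Ch ℝ P) : Prop where
  mem : ∀ v l, Nr p Y δ v l → Θ v (Finsupp.single l 1) ∈ Sp ℝ (Nr p X ε₁ v)

/-- scales -/
structure Scl (ε₁ ε δ : ℝ) : Prop where
  le : δ ≤ ε
  add : ε₁ + δ ≤ ε

/-- the form on the slice -/
def slc (w : Form (DT (id : M → M) p X Z ε)) (u : V → MP M P) (s : V) (l : List P) : Lam V :=
  w.val (fun y => ((u y).1, l)) s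

variable {Θ Θ' : M → Ch ℝ P →ₗ[ℝ] Ch ℝ P}

theorem slc_smooth (hS : Scl ε₁ ε δ) (w : Form (DT (id : M → M) p X Z ε))
    (h : Supp (id : M → M) p Y Z δ F u s) (hv : v ∈ F) {c : Ch ℝ P} (hc : c ∈ Sp ℝ (Nr p X ε₁ v)) :
    ContDiffAt ℝ ∞ (fun y => pr (slc w u y) c) s := by
  simp only [pr_apply]
  refine ContDiffAt.sum fun l hl => ContDiffAt.const_smul _ ?_
  exact w.smooth ⟨F, supp_of_nr h hv hS.le hS.add (hc hl)⟩

/-- **the operator with kernel `Θ`** -/
def Op (hS : Scl ε₁ ε δ) (hΘ : Cmp p X Y ε₁ δ Θ) (w : Form (DT (id : M → M) p X Z ε)) :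
    Form (DT (id : M → M) p Y Z δ) :=
  Form.mk' (fun u s => ∑ᶠ x, (u s).1 x • pr (slc w u s) (Θ x (Finsupp.single (u s).2 1)))
    (by
      rintro V _ _ _ u s ⟨F, h⟩
      have h1 : (fun s => ∑ᶠ x, (u s).1 x • pr (slc w u s) (Θ x (Finsupp.single (u s).2 1)))
          =ᶠ[𝓝 s] fun y => ∑ x ∈ F, (u y).1 x •
            pr (slc w u y) (Θ x (Finsupp.single (u s).2 1)) := by
        filter_upwards [h.near, h.cst] with y hy h2
        rw [h2]
        exact finsum_supp hy _
      refine ContDiffAt.congr_of_eventuallyEq ?_ h1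
      refine ContDiffAt.sum fun x hx => ?_
      exact (h.sm x).contDiffAt.smul (slc_smooth hS w h hx (hΘ.mem x _ (nr_of_supp h hx))))
    (by
      rintro V W _ _ _ _ _ _ u g s ⟨F, h⟩ hg
      rw [finsum_supp (h.comp hg), finsum_supp h, map_sum]
      refine Finset.sum_congr rfl fun x hx => ?_
      rw [map_smul]
      congr 1
      have e := map_pr ((pull (fderiv ℝ g s) : Lam W →ₐ[ℝ] Lam V).toLinearMap) (slc w u (g s))
        (Θ x (Finsupp.single (u (g s)).2 1))
      refine Eq.trans ?_ e.symm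
      refine pr_congr (hΘ.mem x (u (g s)).2 (nr_of_supp h hx)) fun l hl => ?_
      exact w.nat (u := fun y => ((u y).1, l)) (g := g) (x := s)
        ⟨F, supp_of_nr h hx hS.le hS.add hl⟩ hg)
    (by
      rintro V _ _ _ u v s ⟨F, h⟩ huv
      rw [finsum_supp h, finsum_supp (h.congr huv)]
      refine Finset.sum_congr rfl fun x hx => ?_
      rw [huv.eq_of_nhds]
      congr 1
      have h' := h.congr huv
      refine pr_congr (hΘ.mem x _ (nr_of_supp h' hx)) fun l hl => ?_
      refine w.congr ⟨F, supp_of_nr h hx hS.le hS.add hl⟩ ?_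
      filter_upwards [huv] with y hy
      rw [hy])

section ops

variable (hS : Scl ε₁ ε δ) (hΘ : Cmp p X Y ε₁ δ Θ) (hΘ' : Cmp p X Y ε₁ δ Θ')

theorem Op_val (w : Form (DT (id : M → M) p X Z ε)) (h : Supp (id : M → M) p Y Z δ F u s) :
    (Op hS hΘ w).val u s =
      ∑ x ∈ F, (u s).1 x • pr (slc w u s) (Θ x (Finsupp.single (u s).2 1)) := by
  rw [show (Op hS hΘ w).val u s = _ from Form.mk'_val (D := DT (id : M → M) p Y Z δ) ⟨F, h⟩,
    finsum_supp h]

/-- the value with a given list -/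
theorem Op_val' (w : Form (DT (id : M → M) p X Z ε)) (h : Supp (id : M → M) p Y Z δ F u s)
    {l : List P} (hl : ∀ x ∈ l, x ∈ (u s).2) : (Op hS hΘ w).val (fun y => ((u y).1, l)) s =
      ∑ x ∈ F, (u s).1 x • pr (slc w u s) (Θ x (Finsupp.single l 1)) :=
  Op_val hS hΘ w (h.sub hl)

/-- equality of operators -/
theorem Op_eq (w w' : Form (DT (id : M → M) p X Z ε)) (h : ∀ (V : Type) [NormedAddCommGroup V]
    [NormedSpace ℝ V] [FiniteDimensional ℝ V] (u : V → MP M P) (s : V) (F : Finset M),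
    Supp (id : M → M) p Y Z δ F u s → ∀ v ∈ F, pr (slc w u s) (Θ v (Finsupp.single (u s).2 1)) =
      pr (slc w' u s) (Θ' v (Finsupp.single (u s).2 1))) : Op hS hΘ w = Op hS hΘ' w' :=
  ext_T fun V _ _ _ u s F hF => by
    rw [Op_val hS hΘ w hF, Op_val hS hΘ' w' hF]
    exact Finset.sum_congr rfl fun x hx => by rw [h V u s F hF x hx]

theorem Op_congr (w : Form (DT (id : M → M) p X Z ε)) (h : ∀ v l, Nr p Y δ v l →
    Θ v (Finsupp.single l 1) = Θ' v (Finsupp.single l 1)) : Op hS hΘ w = Op hS hΘ' w :=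
  Op_eq hS hΘ hΘ' w w fun V _ _ _ u s F hF v hv => by rw [h v _ (nr_of_supp hF hv)]

theorem Op_add (w w' : Form (DT (id : M → M) p X Z ε)) :
    Op hS hΘ (w + w') = Op hS hΘ w + Op hS hΘ w' :=
  ext_T fun V _ _ _ u s F h => by
    rw [Form.add_val, Op_val _ _ _ h, Op_val _ _ _ h, Op_val _ _ _ h, ← Finset.sum_add_distrib]
    refine Finset.sum_congr rfl fun x _ => ?_
    rw [← smul_add]
    congr 1
    simp only [pr_apply, ← Finset.sum_add_distrib, ← smul_add]
    rfl

theorem Op_smul (c : ℝ) (w : Form (DT (id : M → M) p X Z ε)) :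
    Op hS hΘ (c • w) = c • Op hS hΘ w :=
  ext_T fun V _ _ _ u s F h => by
    rw [Form.smul_val, Op_val _ _ _ h, Op_val _ _ _ h, Finset.smul_sum]
    refine Finset.sum_congr rfl fun x _ => ?_
    rw [smul_comm]
    congr 1
    simp only [pr_apply, Finset.smul_sum]
    exact Finset.sum_congr rfl fun l _ => smul_comm _ _ _

/-- the operator as a linear map -/
def OpL : Form (DT (id : M → M) p X Z ε) →ₗ[ℝ] Form (DT (id : M → M) p Y Z δ) where
  toFun := Op hS hΘ
  map_add' := Op_add hS hΘ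
  map_smul' := Op_smul hS hΘ

@[simp] theorem OpL_apply (w : Form (DT (id : M → M) p X Z ε)) : OpL hS hΘ w = Op hS hΘ w := rfl

theorem Op_sub (w w' : Form (DT (id : M → M) p X Z ε)) :
    Op hS hΘ (w - w') = Op hS hΘ w - Op hS hΘ w' := map_sub (OpL hS hΘ) w w'

theorem Op_neg (w : Form (DT (id : M → M) p X Z ε)) : Op hS hΘ (-w) = -Op hS hΘ w :=
  map_neg (OpL hS hΘ) w

theorem Op_zero : Op hS hΘ (0 : Form (DT (id : M → M) p X Z ε)) = 0 := map_zero (OpL hS hΘ)

/-! #### The coboundary of the lists -/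

/-- the kernel `l ↦ Θ (∂ l)` -/
theorem Cmp.comp_bd (hΘ : Cmp p X Y ε₁ δ Θ) : Cmp p X Y ε₁ δ fun v => (Θ v).comp bd :=
  ⟨fun v l hl => by
    rw [LinearMap.comp_apply, bd_single, one_smul]
    exact map_mem (Θ v) (fun l' hl' => hΘ.mem v l' (hl.sub hl'.2)) (bdL_mem_sub l)⟩

/-- the kernel `l ↦ ∂ (Θ l)` -/
theorem Cmp.bd_comp (hΘ : Cmp p X Y ε₁ δ Θ) : Cmp p X Y ε₁ δ fun v => bd.comp (Θ v) :=
  ⟨fun v l hl => by
    rw [LinearMap.comp_apply]
    refine map_mem bd (fun l' hl' => ?_) (hΘ.mem v l hl)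
    rw [bd_single, one_smul]
    exact Sp_mono (fun l'' h => Nr.sub hl' h.2) (bdL_mem_sub l')⟩

theorem del_Op (w : Form (DT (id : M → M) p X Z ε)) :
    del (Op hS hΘ w) = Op hS hΘ.comp_bd w :=
  ext_T fun V _ _ _ u s F h => by
    rw [del_val _ h, Op_val _ _ _ h, bl_congr' fun l' hl' => Op_val' hS hΘ w h hl', bl_sum]
    refine Finset.sum_congr rfl fun x _ => ?_
    rw [bl_smul]
    congr 1
    rw [LinearMap.comp_apply, bd_single, one_smul, bl_eq_pr]
    exact Sl.lin_ext_apply (f := pr fun l => pr (slc w u s) (Θ x (Finsupp.single l 1)))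
      (g := (pr (slc w u s)).comp (Θ x)) (fun l => by simp) _

/-- the slices of the coboundary -/
theorem slc_del (w : Form (DT (id : M → M) p X Z ε)) (h : Supp (id : M → M) p Y Z δ F u s)
    (hv : v ∈ F) (hS : Scl ε₁ ε δ) {l : List P} (hl : Nr p X ε₁ v l) :
    slc (del w) u s l = bl (slc w u s) l := by
  have h1 := supp_of_nr h hv hS.le hS.add hl
  exact (del_val w h1).trans rfl

theorem Op_del (w : Form (DT (id : M → M) p X Z ε)) :
    Op hS hΘ (del w) = Op hS hΘ.bd_comp w :=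
  ext_T fun V _ _ _ u s F h => by
    rw [Op_val _ _ _ h, Op_val _ _ _ h]
    refine Finset.sum_congr rfl fun x hx => ?_
    congr 1
    rw [LinearMap.comp_apply, ← pr_bl]
    exact pr_congr (hΘ.mem x _ (nr_of_supp h hx)) fun l hl => slc_del w h hx hS hl

/-! #### Degrees, signs, products with forms of the base -/

theorem part_Op (k : ℕ) (w : Form (DT (id : M → M) p X Z ε)) :
    Form.part k (Op hS hΘ w) = Op hS hΘ (Form.part k w) :=
  ext_T fun V _ _ _ u s F h => by
    rw [Form.part_val, Op_val _ _ _ h, Op_val _ _ _ h]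
    rw [show prt k (∑ x ∈ F, (u s).1 x • pr (slc w u s) (Θ x (Finsupp.single (u s).2 1))) =
      ∑ x ∈ F, (u s).1 x • prt k (pr (slc w u s) (Θ x (Finsupp.single (u s).2 1))) by
        simp only [map_sum, map_smul]]
    refine Finset.sum_congr rfl fun x hx => ?_
    congr 1
    rw [pr_apply, pr_apply]
    simp only [map_sum, map_smul]
    rfl

theorem sg_Op (w : Form (DT (id : M → M) p X Z ε)) : (Op hS hΘ w).sg = Op hS hΘ w.sg :=
  ext_T fun V _ _ _ u s F h => by
    rw [Form.sg_val, Op_val _ _ _ h, Op_val _ _ _ h]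
    rw [map_sum]
    refine Finset.sum_congr rfl fun x hx => ?_
    rw [map_smul]
    congr 1
    rw [pr_apply, pr_apply, map_sum]
    refine Finset.sum_congr rfl fun l _ => ?_
    rw [map_smul]
    rfl

/-- forms of the base -/
def bs (b : Form (DM Z ε)) : Form (DT (id : M → M) p X Z ε) := Form.pull Prod.fst map_fst b

theorem bs_val (b : Form (DM Z ε)) (u : V → MP M P) (h : (DT (id : M → M) p X Z ε).At u s) :
    (bs b : Form (DT (id : M → M) p X Z ε)).val u s = b.val (fun y => (u y).1) s :=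
  Form.pull_val map_fst b h

end ops

end

end Vale.Agent.P216.H923G
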