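import Vale.Agent.P216.H923G.Inst
import Vale.Agent.P216.V766.FK2
import Vale.Agent.P216.H313V.F0P
import Vale.Agent.P216.H923E.Inst

/-!
# P216-V, (F): one step of the fibration, for the paths to `b`

`exists_push`: at every scale and every degree, between the levels `s` and `t`, `t + c ≤ s`, there is
a smaller scale `δ` and the data `PushD` for the restriction from `(s, ε)` to `(t, δ)`.
-/

set_option linter.all false

open Set Filter Topology BoundedContinuousFunction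
open scoped ContDiff

namespace Vale.Agent.P216.H923G

open Vale.Agent.P216.Sl Vale.Agent.P216.PS Vale.Agent.P216.V1
open Vale.Agent.P231.Fm Vale.Agent.P231.WA
open Vale.Agent.P216.V609 Vale.Agent.P216.H929V Vale.Agent.P216.H285V Vale.Agent.P216.H961
open Vale.Agent.P216.H892 (FibU nbc fbr)

noncomputable section

variable {M P : Type} [PseudoMetricSpace M] [PseudoMetricSpace P]

/-- the step for a fibration with geometry -/
theorem push_of_fibU [PreconnectedSpace M] {π : P → M} {X O : ℝ → Set P} {c r0 t s : ℝ}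
    {φ : M → ℝ → P → P} {ψ : M → ℝ → P → P} (U : FibU π X O c r0 φ ψ)
    (hO : ∀ t, IsCompact (O t)) (ht : 0 < t) (hs : t + 4 * c ≤ s) {b : M} {A : ℝ → Set P}
    (hA : ∀ s, A s = H313V.fb π (X s) b) (hts : X t ⊆ X s) {ε : ℝ} (hε : 0 < ε)
    (h : (DT (id : M → M) π (A s) ({b} : Set M) ε).Map (DT (id : M → M) π (X s) univ ε) id)
    (q : ℕ) : ∃ δ > 0, ∃ hδ : δ ≤ ε, ∃ (A : Type) (_ : Fintype A), Nonempty
      (PushD (iC (id : M → M) π (X s) univ ε) (iC (id : M → M) π (X t) univ δ) (rB M ε δ hδ)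
        (rD hts hδ) (LF (id : M → M) π (X s) univ ε) (LF (id : M → M) π (X t) univ δ)
        (pullHom Sq.id h) q A) := by
  obtain ⟨δ, hδ, hδε, I, _, z, K, hζ, hz, -⟩ := V766.exists_KD U hO ht hs (half_pos hε) q
  have hS : Scl (ε / 2) ε δ := ⟨by linarith, by linarith⟩
  refine ⟨δ, hδ, hS.le, I, inferInstance, ⟨pushH hS K hts (pullHom Sq.id h) ?_⟩⟩
  intro a w hw hd hB
  have htc : 0 < t + c := by have := U.hc; linarith
  refine H313V.f0' (hA s) h hS (K.cy a) hδ ?_ ?_ ?_ hB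
  · rw [hζ]
    refine H313V.fib_mp (O := O (t + c)) (fun v hv => ((U.um' (t + c) htc).1 b hv).2) ?_
    exact Sp_mono (fun l hl => hl.2.1) (hz a)
  · exact cH_deg hS (K.cy a) (m := q) (j := 0) (by omega) hw
  · exact hd

/-- **One step of the fibration for the paths to `b`.** -/
theorem exists_push {M : Type} [MetricSpace M] [CompactSpace M] [SimplyConnectedSpace M] {ρ : ℝ}
    (hρ : 0 < ρ) (hU : LS.UniqSeg M ρ) (b : M) : ∃ c : ℝ, 0 ≤ c ∧ ∀ s t (hst : t + c ≤ s),
      0 < t → ∀ {ε : ℝ}, 0 < ε → ∀ (hts : H456.PF b t ⊆ H456.PF b s)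
      (h : (DT (id : M → M) (fun w : ℝ →ᵇ M => w 0) (PS.P b b s) ({b} : Set M) ε).Map
        (DT (id : M → M) (fun w : ℝ →ᵇ M => w 0) (H456.PF b s) univ ε) id) (q : ℕ),
      ∃ δ > 0, ∃ hδ : δ ≤ ε, ∃ (A : Type) (_ : Fintype A), Nonempty
        (PushD (iC (id : M → M) (fun w : ℝ →ᵇ M => w 0) (H456.PF b s) univ ε)
          (iC (id : M → M) (fun w : ℝ →ᵇ M => w 0) (H456.PF b t) univ δ) (rB M ε δ hδ)
          (rD hts hδ) (LF (id : M → M) (fun w : ℝ →ᵇ M => w 0) (H456.PF b s) univ ε)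
          (LF (id : M → M) (fun w : ℝ →ᵇ M => w 0) (H456.PF b t) univ δ) (pullHom Sq.id h) q A) := by
  obtain ⟨R, ℓ₀, D, ℓ, r0, c, T⟩ := H923E.exists_tr0 hρ hU b
  have U := T.fibU_PF b
  refine ⟨4 * (R + ℓ + (R + ℓ)), by have := U.hc; linarith, fun s t hst ht ε hε hts h q => ?_⟩
  exact push_of_fibU U (fun t => isCompact_P _ _ _) ht hst (fun s => H313V.P_eq_fb b s) hts hε h q

end

end Vale.Agent.P216.H923G
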